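import Vale.Agent.P137.Centred.Moments

/-!
P137, centred operator: ball averages as a `C¹` function of centre and radius.
-/

open MeasureTheory Metric Set Filter
open scoped ENNReal Topology

noncomputable section

namespace Vale.Agent.P137.Centred

variable {d : ℕ}

/-- The average over the ball with centre `p.1` and radius `p.2`; at radius `0` the value at the
centre. -/
def cavg (f : X d → ℝ) (p : X d × ℝ) : ℝ :=
  (volume (ball (0 : X d) 1)).toReal⁻¹ * ∫ u in ball (0 : X d) 1, f (p.1 + p.2 • u)

/-- The derivative of `cavg`. -/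
def cavgDeriv (f : X d → ℝ) (p : X d × ℝ) : X d × ℝ →L[ℝ] ℝ :=
  (volume (ball (0 : X d) 1)).toReal⁻¹ • ∫ u in ball (0 : X d) 1,
    (fderiv ℝ f (p.1 + p.2 • u)).comp
      (ContinuousLinearMap.fst ℝ (X d) ℝ + (ContinuousLinearMap.snd ℝ (X d) ℝ).smulRight u)

lemma vol_unit_pos : 0 < (volume (ball (0 : X d) 1)).toReal :=
  ENNReal.toReal_pos (measure_ball_pos volume 0 one_pos).ne' measure_ball_lt_top.ne

lemma cavg_zero (f : X d → ℝ) (x : X d) : cavg f (x, 0) = f x := by
  have := vol_unit_pos (d := d)
  simp only [cavg, zero_smul, add_zero, setIntegral_const, smul_eq_mul, measureReal_def]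
  field_simp

lemma cavg_eq_avg (f : X d → ℝ) (x : X d) {t : ℝ} (ht : 0 < t) :
    cavg f (x, t) = avg f (x, t) := by
  have hv := vol_unit_pos (d := d)
  have e : ball x t = (fun u => x + u) '' ball 0 t := by
    simp [image_add_left, add_comm]
  have h1 : ∫ y in ball x t, f y = ∫ u in ball (0 : X d) t, f (x + u) := by
    rw [e, (measurePreserving_add_left volume x).setIntegral_image_emb
      (measurableEmbedding_addLeft x)]
  have h2 : ∫ u in ball (0 : X d) 1, f (x + t • u) =
      (t ^ d)⁻¹ * ∫ u in ball (0 : X d) t, f (x + u) := by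
    have := Measure.setIntegral_comp_smul_of_pos (μ := (volume : Measure (X d)))
      (fun u => f (x + u)) (ball (0 : X d) 1) ht
    simpa [smul_unitBall_of_pos ht] using this
  have h3 : (volume (ball x t)).toReal = t ^ d * (volume (ball (0 : X d) 1)).toReal := by
    rw [Measure.addHaar_ball_of_pos volume x ht, ENNReal.toReal_mul,
      ENNReal.toReal_ofReal (by positivity), finrank_euclideanSpace_fin]
  simp only [cavg, avg]
  rw [h1, h2, h3]
  field_simp

/-- Ball averages of a `C¹` function are differentiable in centre and radius. -/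
theorem hasFDerivAt_cavg {f : X d → ℝ} (hf : ContDiff ℝ 1 f) (p : X d × ℝ) :
    HasFDerivAt (cavg f) (cavgDeriv f p) p := by
  set L : X d → X d × ℝ →L[ℝ] X d := fun u =>
    ContinuousLinearMap.fst ℝ (X d) ℝ + (ContinuousLinearMap.snd ℝ (X d) ℝ).smulRight u with hL
  have hc : Continuous fun q : (X d × ℝ) × X d =>
      (fderiv ℝ f (q.1.1 + q.1.2 • q.2)).comp (L q.2) := by
    refine ((hf.continuous_fderiv one_ne_zero).comp (by fun_prop)).clm_comp ?_
    refine continuous_const.add ?_
    exact ((ContinuousLinearMap.smulRightL ℝ (X d × ℝ) (X d)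
      (ContinuousLinearMap.snd ℝ (X d) ℝ)).continuous).comp continuous_snd
  obtain ⟨K, hK⟩ := ((isCompact_closedBall p 1).prod
    (isCompact_closedBall (0 : X d) 1)).exists_bound_of_continuousOn hc.continuousOn
  have hfc : ∀ q : X d × ℝ, Continuous fun u : X d => f (q.1 + q.2 • u) := fun q =>
    hf.continuous.comp (by fun_prop)
  have hfin : volume (ball (0 : X d) 1) ≠ ⊤ := measure_ball_lt_top.ne
  have hint : Integrable (fun u => f (p.1 + p.2 • u)) (volume.restrict (ball (0 : X d) 1)) :=
    ((hfc p).continuousOn.integrableOn_compact (isCompact_closedBall 0 1)).mono_set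
      ball_subset_closedBall
  have h := hasFDerivAt_integral_of_dominated_of_fderiv_le
    (μ := volume.restrict (ball (0 : X d) 1)) (F := fun q u => f (q.1 + q.2 • u))
    (F' := fun q u => (fderiv ℝ f (q.1 + q.2 • u)).comp (L u)) (x₀ := p) (s := ball p 1)
    (bound := fun _ => K) (ball_mem_nhds p one_pos)
    (Eventually.of_forall fun q => (hfc q).aestronglyMeasurable) hint
    (hc.comp (continuous_const.prodMk continuous_id)).aestronglyMeasurable
    ?_ (integrableOn_const hfin) (Eventually.of_forall fun u q _ => ?_)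
  · exact h.const_mul _
  · filter_upwards [ae_restrict_mem measurableSet_ball] with u hu q hq
    exact hK (q, u) ⟨ball_subset_closedBall hq, ball_subset_closedBall hu⟩
  · have h1 : HasFDerivAt (fun q : X d × ℝ => q.1 + q.2 • u) (L u) q :=
      hasFDerivAt_fst.add (hasFDerivAt_snd.smul_const u)
    exact (hf.differentiable one_ne_zero _).hasFDerivAt.comp q h1

lemma continuous_cavg {f : X d → ℝ} (hf : ContDiff ℝ 1 f) : Continuous (cavg f) :=
  continuous_iff_continuousAt.2 fun p => (hasFDerivAt_cavg hf p).continuousAt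

/-- The spatial derivative of an average is the average of the derivative. -/
theorem cavgDeriv_apply {f : X d → ℝ} (hf : ContDiff ℝ 1 f) (p : X d × ℝ) (v : X d) (s : ℝ) :
    cavgDeriv f p (v, s) = (volume (ball (0 : X d) 1)).toReal⁻¹ *
      ∫ u in ball (0 : X d) 1, fderiv ℝ f (p.1 + p.2 • u) (v + s • u) := by
  have hc : Continuous fun u : X d => (fderiv ℝ f (p.1 + p.2 • u)).comp
      (ContinuousLinearMap.fst ℝ (X d) ℝ + (ContinuousLinearMap.snd ℝ (X d) ℝ).smulRight u) := by
    refine ((hf.continuous_fderiv one_ne_zero).comp (by fun_prop)).clm_comp ?_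
    refine continuous_const.add ?_
    exact (ContinuousLinearMap.smulRightL ℝ (X d × ℝ) (X d)
      (ContinuousLinearMap.snd ℝ (X d) ℝ)).continuous
  rw [cavgDeriv, smul_apply, ContinuousLinearMap.integral_apply
    ((hc.continuousOn.integrableOn_compact (isCompact_closedBall 0 1)).mono_set
      ball_subset_closedBall)]
  simp

end Vale.Agent.P137.Centred
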