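import Vale.Agent.P137.Centred.Core.Defs

/-!
P137, centred operator: dyadic cubes.
-/

open MeasureTheory Metric Set Filter
open scoped ENNReal Topology RealInnerProductSpace

noncomputable section

namespace Vale.Agent.P137.Centred

variable {d : ℕ}

lemma mem_cube {z y : X d} {s : ℝ} : y ∈ cube z s ↔ ∀ i, z i ≤ y i ∧ y i < z i + s := Iff.rfl

lemma cube_eq_preimage (z : X d) (s : ℝ) :
    cube z s = (WithLp.ofLp : X d → Fin d → ℝ) ⁻¹'
      univ.pi (fun i => Ico (z i) (z i + s)) := by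
  ext y; simp [cube, Set.mem_pi]

lemma measurableSet_cube (z : X d) (s : ℝ) : MeasurableSet (cube z s) := by
  rw [cube_eq_preimage]
  exact (MeasurableSet.univ_pi fun i => measurableSet_Ico).preimage
    (PiLp.volume_preserving_ofLp (Fin d)).measurable

lemma volume_cube (z : X d) {s : ℝ} (hs : 0 ≤ s) : volume (cube z s) = ENNReal.ofReal (s ^ d) := by
  rw [cube_eq_preimage, (PiLp.volume_preserving_ofLp (Fin d)).measure_preimage
    (MeasurableSet.univ_pi fun i => measurableSet_Ico).nullMeasurableSet, Real.volume_pi_Ico]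
  simp [ENNReal.ofReal_pow hs]

lemma volume_cube_lt_top (z : X d) {s : ℝ} (hs : 0 ≤ s) : volume (cube z s) < ⊤ := by
  rw [volume_cube z hs]; exact ENNReal.ofReal_lt_top

lemma measureReal_cube (z : X d) {s : ℝ} (hs : 0 ≤ s) : volume.real (cube z s) = s ^ d := by
  rw [measureReal_def, volume_cube z hs, ENNReal.toReal_ofReal (by positivity)]

lemma norm_le_sqrt_mul {w : X d} {c : ℝ} (hc : 0 ≤ c) (h : ∀ i, |w i| ≤ c) :
    ‖w‖ ≤ Real.sqrt d * c := by
  rw [EuclideanSpace.norm_eq]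
  calc Real.sqrt (∑ i, ‖w i‖ ^ 2) ≤ Real.sqrt (∑ _i : Fin d, c ^ 2) :=
        Real.sqrt_le_sqrt (Finset.sum_le_sum fun i _ =>
          pow_le_pow_left₀ (norm_nonneg _) (h i) 2)
    _ = Real.sqrt d * c := by simp [Real.sqrt_sq hc]

lemma dist_cube_le {z y y' : X d} {s : ℝ} (hs : 0 ≤ s) (hy : y ∈ cube z s)
    (hy' : y' ∈ cube z s) : ‖y - y'‖ ≤ ((d:ℝ) + 1) * s := by
  refine (norm_le_sqrt_mul hs fun i => ?_).trans (mul_le_mul_of_nonneg_right ?_ hs)
  · rw [PiLp.sub_apply, abs_le]; constructor <;> linarith [(hy i).1, (hy i).2, (hy' i).1, (hy' i).2]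
  · rw [Real.sqrt_le_iff]; constructor <;> nlinarith [Nat.cast_nonneg (α := ℝ) d]

lemma dl_pos (j : ℕ) : 0 < dl j := by unfold dl; positivity

lemma dl_succ (j : ℕ) : dl (j + 1) = dl j / 2 := by
  unfold dl; rw [pow_succ]; field_simp

lemma dl_antitone {j s : ℕ} (h : j ≤ s) : dl s ≤ dl j := by
  unfold dl; gcongr; norm_num

lemma dl_le_one (j : ℕ) : dl j ≤ 1 := by simpa [dl] using dl_antitone (Nat.zero_le j)

lemma mem_cell {j : ℕ} {k : Fin d → ℤ} {y : X d} :
    y ∈ cube (dcorner j k) (dl j) ↔ ∀ i, ⌊y i * 2 ^ j⌋ = k i := by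
  have h2 : (0:ℝ) < 2 ^ j := by positivity
  simp only [mem_cube, dcorner, dl, Int.floor_eq_iff]
  refine forall_congr' fun i => ?_
  rw [div_le_iff₀ h2, show (k i : ℝ) / 2 ^ j + ((2:ℝ) ^ j)⁻¹ = (k i + 1) / 2 ^ j by ring,
    lt_div_iff₀ h2]

lemma mem_desc {j s : ℕ} {k k' : Fin d → ℤ} :
    k' ∈ desc j s k ↔ ∀ i, k' i / 2 ^ (s - j) = k i := by
  simp only [desc, Fintype.mem_piFinset, Finset.mem_Ico]
  refine forall_congr' fun i => ?_
  have h : (0:ℤ) < 2 ^ (s - j) := by positivity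
  rw [Int.ediv_eq_iff_of_pos h, add_one_mul]

lemma cell_subset {j s : ℕ} (h : j ≤ s) {k k' : Fin d → ℤ} (hk : k' ∈ desc j s k) :
    cube (dcorner s k') (dl s) ⊆ cube (dcorner j k) (dl j) := by
  intro y hy
  rw [mem_cell] at hy ⊢
  intro i
  have h1 := mem_desc.1 hk i
  rw [← h1, ← hy i, show (2:ℤ) ^ (s - j) = ((2 ^ (s - j) : ℕ) : ℤ) by push_cast; rfl,
    ← Int.floor_div_natCast]
  congr 1
  obtain ⟨m, rfl⟩ := Nat.exists_eq_add_of_le h
  push_cast
  rw [Nat.add_sub_cancel_left, pow_add]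
  field_simp

lemma cell_sum_children {j : ℕ} (k : Fin d → ℤ) (g : X d → X d)
    (hg : IntegrableOn g (cube (dcorner j k) (dl j))) :
    ∫ y in cube (dcorner j k) (dl j), g y =
      ∑ c ∈ desc j (j + 1) k, ∫ y in cube (dcorner (j + 1) c) (dl (j + 1)), g y := by
  have hU : cube (dcorner j k) (dl j) =
      ⋃ c ∈ desc j (j + 1) k, cube (dcorner (j + 1) c) (dl (j + 1)) := by
    refine subset_antisymm (fun y hy => ?_) (iUnion₂_subset fun c hc => cell_subset (by omega) hc)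
    refine mem_iUnion₂.2 ⟨fun i => ⌊y i * 2 ^ (j + 1)⌋, mem_desc.2 fun i => ?_,
      mem_cell.2 fun i => rfl⟩
    rw [mem_cell] at hy
    rw [← hy i, show (2:ℤ) ^ (j + 1 - j) = ((2:ℕ):ℤ) by simp, ← Int.floor_div_natCast]
    congr 1
    push_cast
    ring
  rw [hU]
  refine integral_biUnion_finset _ (fun c _ => measurableSet_cube _ _) ?_
    (fun c hc => hg.mono_set (cell_subset (by omega) hc))
  intro a _ b _ hab
  refine Set.disjoint_left.2 fun y hya hyb => hab (funext fun i => ?_)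
  rw [← mem_cell.1 hya i, mem_cell.1 hyb i]

lemma sum_desc {M : Type*} [AddCommMonoid M] {j s : ℕ} (hs : j + 1 ≤ s) (k : Fin d → ℤ)
    (F : (Fin d → ℤ) → M) :
    ∑ c ∈ desc j (j + 1) k, ∑ k' ∈ desc (j + 1) s c, F k' = ∑ k' ∈ desc j s k, F k' := by
  have key : ∀ (k' : Fin d → ℤ) (i : Fin d),
      (k' i / 2 ^ (s - (j + 1))) / 2 ^ (j + 1 - j) = k' i / 2 ^ (s - j) := by
    intro k' i
    rw [Int.ediv_ediv_of_nonneg (by positivity), ← pow_add]
    congr 2
    omega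
  have hmaps : ∀ k' ∈ desc j s k,
      (fun i => k' i / 2 ^ (s - (j + 1))) ∈ desc j (j + 1) k := fun k' hk' =>
    mem_desc.2 fun i => by rw [key]; exact mem_desc.1 hk' i
  refine Eq.trans ?_ (Finset.sum_fiberwise_of_maps_to hmaps F)
  refine Finset.sum_congr rfl fun c hc => Finset.sum_congr ?_ fun _ _ => rfl
  ext k'
  simp only [Finset.mem_filter, mem_desc, funext_iff]
  refine ⟨fun h => ⟨fun i => ?_, h⟩, fun h => h.2⟩
  rw [← key, h i]
  exact mem_desc.1 hc i

end Vale.Agent.P137.Centred
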