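import Vale.Agent.P137.Centred.Avg

/-!
P137, centred operator on `W^{1,1}`: definitions and the interfaces between the modules.
-/

open MeasureTheory Metric Set Filter
open scoped ENNReal Topology ContDiff RealInnerProductSpace

noncomputable section

namespace Vale.Agent.P137.Centred

variable {d : ℕ}

/-! ### The statement -/

/-- The centred maximal function: supremum of the averages of `|f|` over the open Euclidean balls
centred at the point. -/
def cmaxFun (f : X d → ℝ) (x : X d) : ℝ≥0∞ :=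
  ⨆ (r : ℝ) (_ : 0 < r), (volume (ball x r))⁻¹ * ∫⁻ y in ball x r, ‖f y‖ₑ

/-- Endpoint Sobolev regularity of the centred maximal operator. -/
def CentredW11 : Prop :=
  ∀ d : ℕ, 1 ≤ d → ∃ C : ℝ, ∀ (f : X d → ℝ) (G : Fin d → X d → ℝ),
    Integrable f → (∀ i, Integrable (G i)) → IsWeakGrad f G →
      (∀ᵐ x, cmaxFun f x < ⊤) ∧
      LocallyIntegrable (fun x => (cmaxFun f x).toReal) ∧
      ∃ H : Fin d → X d → ℝ, (∀ i, Integrable (H i)) ∧
        IsWeakGrad (fun x => (cmaxFun f x).toReal) H ∧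
        ∑ i, ∫ x, |H i x| ≤ C * ∑ i, ∫ x, |G i x|

/-! ### Regular inputs -/

/-- Regular inputs: nonnegative, continuously differentiable, compactly supported. -/
def RegFun (f : X d → ℝ) : Prop := ContDiff ℝ 1 f ∧ HasCompactSupport f ∧ ∀ x, 0 ≤ f x

/-- The gradient as a vector. -/
def vgrad (f : X d → ℝ) (y : X d) : X d := gradient f y

/-- The centred maximal function of a regular input. -/
def cMax (f : X d → ℝ) (x : X d) : ℝ := sSup ((fun r => cavg f (x, r)) '' Ici 0)

/-- The spatial gradient of a ball average. -/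
def gradA (f : X d → ℝ) (x : X d) (r : ℝ) : X d :=
  (volume (ball (0 : X d) 1)).toReal⁻¹ • ∫ u in ball (0 : X d) 1, vgrad f (x + r • u)

/-- The radial derivative of a ball average. -/
def slopeA (f : X d → ℝ) (x : X d) (r : ℝ) : ℝ :=
  (volume (ball (0 : X d) 1)).toReal⁻¹ * ∫ u in ball (0 : X d) 1, ⟪vgrad f (x + r • u), u⟫

/-! ### Cubes and the multiscale mass -/

/-- The half-open cube with lower corner `z` and side `s`. -/
def cube (z : X d) (s : ℝ) : Set (X d) := {y | ∀ i, z i ≤ y i ∧ y i < z i + s}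

/-- The integral of a field over a cube. -/
def cint (v : X d → X d) (z : X d) (s : ℝ) : X d := ∫ y in cube z s, v y

/-- The mass of a field at scale `s`: the integral of the lengths of its averages over the cubes
of side `s`. -/
def cmass (v : X d → X d) (s : ℝ) : ℝ≥0∞ :=
  (ENNReal.ofReal (s ^ d))⁻¹ * ∫⁻ z, ‖cint v z s‖ₑ

/-- Excess of a vector over a direction. -/
def excess (e X : X d) : ℝ := ‖X‖ - ⟪e, X⟫

/-- The bad part of a vector: its length if it is far from the direction. -/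
def bad (η : ℝ) (e X : X d) : ℝ := if η * ‖X‖ < excess e X then ‖X‖ else 0

/-! ### The normalised core -/

/-- The lower corner of a dyadic cube. -/
def dcorner (j : ℕ) (k : Fin d → ℤ) : X d := WithLp.toLp 2 fun i => (k i : ℝ) / 2 ^ j

/-- The dyadic cubes of level `j` in the cube `[-n, n)^d`. -/
def dbox (d n j : ℕ) : Finset (Fin d → ℤ) :=
  Fintype.piFinset fun _ => Finset.Ico (-((n * 2 ^ j : ℕ) : ℤ)) ((n * 2 ^ j : ℕ) : ℤ)

/-- The integral of the gradient over a dyadic cube. -/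
def dint (f : X d → ℝ) (j : ℕ) (k : Fin d → ℤ) : X d :=
  cint (vgrad f) (dcorner j k) ((2:ℝ) ^ j)⁻¹

/-- The bad mass of level `j` near the unit cube. -/
def badMass (η : ℝ) (e : X d) (f : X d → ℝ) (j : ℕ) : ℝ :=
  ∑ k ∈ dbox d 8 j, bad η e (dint f j k)

/-- The core estimate, at unit scale: where a maximising radius is of unit size, the gradient of
the constrained maximal function is in the cone around `e`, up to the bad masses of the finer
levels with geometric weights. -/
def CoreEst (d : ℕ) : Prop :=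
  ∃ η lam q C C' : ℝ, 0 < η ∧ η < 1 ∧ 0 < lam ∧ lam < 1 ∧ 0 < q ∧ q < 1 ∧ 1 ≤ C ∧ 0 ≤ C' ∧
    ∀ (f : X d → ℝ), ContDiff ℝ 1 f → ∀ (e : X d), ‖e‖ ≤ 1 →
    ∀ (lo up ρ : X d → ℝ), (∀ x y, |lo x - lo y| ≤ lam * ‖x - y‖) →
      (∀ x y, |up x - up y| ≤ lam * ‖x - y‖) → Measurable ρ →
    ∀ (Ω : Set (X d)), MeasurableSet Ω → Ω ⊆ cube 0 1 →
      (∀ x ∈ Ω, 1 ≤ ρ x ∧ ρ x ≤ 2 ∧ lo x ≤ ρ x ∧ ρ x ≤ up x ∧
        ∀ t, lo x ≤ t → t ≤ up x → cavg f (x, t) ≤ cavg f (x, ρ x)) →
      ∫⁻ x in Ω, ENNReal.ofReal (‖gradA f x (ρ x)‖ + |slopeA f x (ρ x)| -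
          C * (⟪e, gradA f x (ρ x)⟫ - lam * |slopeA f x (ρ x)|)) ≤
        ENNReal.ofReal C' * ∑' j : ℕ, ENNReal.ofReal (q ^ j * badMass η e f j)

/-- The main estimate: the gradient of the maximal function of a regular input, on a set, is
controlled by the gradient near the set, by the large radii, and by the loss of mass of the
gradient at the scale of the small radii. -/
def MainEst (d : ℕ) : Prop :=
  ∃ C : ℝ, 0 < C ∧ ∀ f : X d → ℝ, RegFun f → ∀ (L : ℝ), 0 < L →
    ∀ O : Set (X d), MeasurableSet O →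
      ∫⁻ x in O, ‖fderiv ℝ (cMax f) x‖ₑ ≤ ENNReal.ofReal C *
        ((ENNReal.ofReal (L ^ d))⁻¹ * (∫⁻ y, ‖vgrad f y‖ₑ) * volume O +
          (∫⁻ y in thickening (C * L) O, ‖vgrad f y‖ₑ) +
          ((∫⁻ y, ‖vgrad f y‖ₑ) - cmass (vgrad f) (C * L)))

end Vale.Agent.P137.Centred
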