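import Vale.Agent.P137.Defs

/-!
P137, centred operator: rotational moments of a gradient against radial weights vanish.
-/

open MeasureTheory Metric Set Filter
open scoped ENNReal Topology RealInnerProductSpace

noncomputable section

namespace Vale.Agent.P137.Centred

variable {d : ℕ}

/-- The unit coordinate vector. -/
def e (i : Fin d) : X d := EuclideanSpace.single i 1

/-- The infinitesimal rotation in the plane `(a, b)`. -/
def rotGen (a b : Fin d) (u : X d) : X d := u a • e b - u b • e a

/-- The rotation by the angle `θ` in the plane `(a, b)`. -/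
def rot (a b : Fin d) (θ : ℝ) (u : X d) : X d :=
  u + ((Real.cos θ - 1) * u a - Real.sin θ * u b) • e a +
    (Real.sin θ * u a + (Real.cos θ - 1) * u b) • e b

lemma rot_apply {a b : Fin d} (θ : ℝ) (u : X d) (i : Fin d) :
    rot a b θ u i = u i + ((Real.cos θ - 1) * u a - Real.sin θ * u b) * (if i = a then 1 else 0) +
      (Real.sin θ * u a + (Real.cos θ - 1) * u b) * (if i = b then 1 else 0) := by
  simp [rot, e]

lemma rot_add (a b : Fin d) (θ : ℝ) (u v : X d) :
    rot a b θ (u + v) = rot a b θ u + rot a b θ v := by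
  simp only [rot, PiLp.add_apply, mul_add, add_smul, sub_smul]
  module

lemma rot_smul (a b : Fin d) (θ c : ℝ) (u : X d) : rot a b θ (c • u) = c • rot a b θ u := by
  simp only [rot, PiLp.smul_apply, smul_eq_mul, smul_add, smul_smul]
  module

lemma norm_rot {a b : Fin d} (hab : a ≠ b) (θ : ℝ) (u : X d) : ‖rot a b θ u‖ = ‖u‖ := by
  have h : ‖rot a b θ u‖ ^ 2 = ‖u‖ ^ 2 := by
    rw [EuclideanSpace.real_norm_sq_eq, EuclideanSpace.real_norm_sq_eq,
      ← sub_eq_zero, ← Finset.sum_sub_distrib,
      ← Finset.sum_subset (Finset.subset_univ ({a, b} : Finset (Fin d))) (fun i _ hi => ?_)]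
    · rw [Finset.sum_pair hab, rot_apply, rot_apply]
      simp only [if_true, if_neg hab, if_neg hab.symm]
      linear_combination (u a ^ 2 + u b ^ 2) * Real.sin_sq_add_cos_sq θ
    · simp only [Finset.mem_insert, Finset.mem_singleton, not_or] at hi
      simp [rot_apply, hi.1, hi.2]
  have := congrArg Real.sqrt h
  rwa [Real.sqrt_sq (norm_nonneg _), Real.sqrt_sq (norm_nonneg _)] at this

/-- The rotation as a linear isometry. -/
def rotIso {a b : Fin d} (hab : a ≠ b) (θ : ℝ) : X d ≃ₗᵢ[ℝ] X d :=
  ({ toFun := rot a b θ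
     map_add' := rot_add a b θ
     map_smul' := fun c u => rot_smul a b θ c u
     norm_map' := norm_rot hab θ } : X d →ₗᵢ[ℝ] X d).toLinearIsometryEquiv rfl

lemma rotIso_apply {a b : Fin d} (hab : a ≠ b) (θ : ℝ) (u : X d) :
    rotIso hab θ u = rot a b θ u := rfl

lemma continuous_rot (a b : Fin d) : Continuous fun p : ℝ × X d => rot a b p.1 p.2 := by
  unfold rot; fun_prop

lemma continuous_rotGen (a b : Fin d) : Continuous (rotGen a b : X d → X d) := by
  unfold rotGen; fun_prop

lemma hasDerivAt_rot {a b : Fin d} (hab : a ≠ b) (θ : ℝ) (u : X d) :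
    HasDerivAt (fun t => rot a b t u) (rotGen a b (rot a b θ u)) θ := by
  have h1 : HasDerivAt (fun t => (Real.cos t - 1) * u a - Real.sin t * u b)
      (-Real.sin θ * u a - Real.cos θ * u b) θ :=
    (((Real.hasDerivAt_cos θ).sub_const 1).mul_const _).sub ((Real.hasDerivAt_sin θ).mul_const _)
  have h2 : HasDerivAt (fun t => Real.sin t * u a + (Real.cos t - 1) * u b)
      (Real.cos θ * u a + -Real.sin θ * u b) θ :=
    ((Real.hasDerivAt_sin θ).mul_const _).add (((Real.hasDerivAt_cos θ).sub_const 1).mul_const _)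
  refine (((hasDerivAt_const θ u).add (h1.smul_const (e a))).add
    (h2.smul_const (e b))).congr_deriv ?_
  simp only [rotGen, rot_apply, if_true, if_neg hab, if_neg hab.symm]
  module

/-- A gradient has no rotational moment against radial weights. -/
theorem integral_rotGen {f : X d → ℝ} (hf : ContDiff ℝ 1 f) {ψ : ℝ → ℝ} (hψ : Measurable ψ)
    {B R : ℝ} (hB : ∀ t, |ψ t| ≤ B) (hR : ∀ t, R < t → ψ t = 0) {a b : Fin d} (hab : a ≠ b)
    (x : X d) : ∫ u, ψ ‖u‖ * fderiv ℝ f (x + u) (rotGen a b u) = 0 := by
  set g : ℝ → X d → ℝ := fun θ u => ψ ‖u‖ * f (x + rot a b θ u) with hg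
  set g' : ℝ → X d → ℝ := fun θ u =>
    ψ ‖u‖ * fderiv ℝ f (x + rot a b θ u) (rotGen a b (rot a b θ u)) with hg'
  have hconst : ∀ θ, ∫ u, g θ u = ∫ u, ψ ‖u‖ * f (x + u) := by
    intro θ
    rw [← (rotIso hab θ).measurePreserving.integral_comp
      (rotIso hab θ).toHomeomorph.measurableEmbedding (fun u => ψ ‖u‖ * f (x + u))]
    simp [hg, rotIso_apply, norm_rot hab]
  have hc' : Continuous fun p : ℝ × X d =>
      fderiv ℝ f (x + rot a b p.1 p.2) (rotGen a b (rot a b p.1 p.2)) :=
    ((hf.continuous_fderiv one_ne_zero).comp (continuous_const.add (continuous_rot a b))).clm_apply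
      ((continuous_rotGen a b).comp (continuous_rot a b))
  obtain ⟨K, hK⟩ := ((isCompact_Icc (a := (-1:ℝ)) (b := 1)).prod
    (isCompact_closedBall (0 : X d) R)).exists_bound_of_continuousOn hc'.continuousOn
  have hψm : Measurable fun u : X d => ψ ‖u‖ := hψ.comp measurable_norm
  have hgc : ∀ θ, Continuous fun u => f (x + rot a b θ u) := fun θ =>
    hf.continuous.comp (continuous_const.add
      ((continuous_rot a b).comp (continuous_const.prodMk continuous_id)))
  have hball : ∀ u, u ∉ closedBall (0 : X d) R → ψ ‖u‖ = 0 := fun u hu => hR _ (by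
    simpa [mem_closedBall_zero_iff] using hu)
  have hint : Integrable (g 0) := by
    obtain ⟨F, hF⟩ := (isCompact_closedBall (0 : X d) R).exists_bound_of_continuousOn
      (hgc 0).continuousOn
    refine IntegrableOn.integrable_of_forall_notMem_eq_zero (s := closedBall (0 : X d) R)
      ?_ (fun u hu => by simp [hg, hball u hu])
    refine IntegrableOn.of_bound measure_closedBall_lt_top
      (hψm.mul (hgc 0).measurable).aestronglyMeasurable (B * F) ?_
    filter_upwards [ae_restrict_mem measurableSet_closedBall] with u hu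
    rw [norm_mul]
    exact mul_le_mul (by simpa [Real.norm_eq_abs] using hB _) (hF u hu) (norm_nonneg _)
      (le_trans (abs_nonneg _) (hB 0))
  have h := hasDerivAt_integral_of_dominated_loc_of_deriv_le (μ := (volume : Measure (X d)))
    (F := g) (F' := g') (x₀ := 0) (s := Ioo (-1:ℝ) 1)
    (bound := (closedBall (0 : X d) R).indicator fun _ => B * K) (Ioo_mem_nhds (by norm_num)
      (by norm_num))
    (Eventually.of_forall fun θ => (hψm.mul (hgc θ).measurable).aestronglyMeasurable) hint
    (hψm.mul (hc'.comp (continuous_const.prodMk continuous_id)).measurable).aestronglyMeasurable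
    (Eventually.of_forall fun u θ hθ => ?_)
    ((integrable_indicator_iff measurableSet_closedBall).2
      (integrableOn_const measure_closedBall_lt_top.ne))
    (Eventually.of_forall fun u θ _ => ?_)
  · have h2 : HasDerivAt (fun θ => ∫ u, g θ u) 0 0 := by
      simpa [hconst] using hasDerivAt_const (0:ℝ) (∫ u, ψ ‖u‖ * f (x + u))
    have := h.2.unique h2
    simpa [hg', rot] using this
  · by_cases hu : u ∈ closedBall (0 : X d) R
    · rw [indicator_of_mem hu, hg', norm_mul]
      exact mul_le_mul (by simpa [Real.norm_eq_abs] using hB _)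
        (hK (θ, u) ⟨Ioo_subset_Icc_self hθ, hu⟩) (norm_nonneg _)
        (le_trans (abs_nonneg _) (hB 0))
    · simp [hg', hball u hu, indicator_of_notMem hu]
  · exact ((hf.differentiable one_ne_zero _).hasFDerivAt.comp_hasDerivAt θ
      ((hasDerivAt_rot hab θ u).const_add x)).const_mul _

end Vale.Agent.P137.Centred
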